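import Vale.Agent.P325.V2.Final2

/-!
# Unique Games in time `2 ^ (n ^ O((ε / κ²) log (κ² / ε)))`

For every alphabet size `k`, every exponent `α ∈ (0, 1]` and every gap `κ ∈ (0, 1]`, the gap
problem (value at least `1 - ε` against value at most `1 - κ`) is solved by a deterministic
Turing machine in time `2 ^ (C * n ^ α)`, where `ε = c * κ² * α / (1 + log (1 / α))`, `c` absolute,
and `n` is the number of vertices plus the number of constraints. Hence every language which has a
polynomial time reduction to this gap problem with instances of size at most `A * (|x| + 1) ^ b` is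
decided in time `2 ^ (C * (|x| + 1) ^ (b * α))`.
-/

theorem Vale.Agent.Results.P325.SubexpUG.result : ∃ c : ℝ, 0 < c ∧ ∀ (k : ℕ) (α κ ε : ℝ),
    2 ≤ k → 0 < α → α ≤ 1 → 0 < κ → κ ≤ 1 →
    ε ≤ c * κ ^ 2 * α / (1 + Real.log (1 / α)) →
    Vale.Agent.P325.SolvedIn (Vale.Agent.P325.Inst.code : Vale.Agent.P325.Inst k → List Bool)
      (fun G => G.size) (fun G => 1 - ε ≤ G.val) (fun G => G.val ≤ 1 - κ) α ∧
    ∀ (L : Set (List Bool)) (f : List Bool → Vale.Agent.P325.Inst k) (A b : ℝ), 0 < b →
      Nonempty (Turing.TM2ComputableInPolyTime (fun x : List Bool => x)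
        (Vale.Agent.P325.Inst.code : Vale.Agent.P325.Inst k → List Bool) f) →
      (∀ x, ((f x).size : ℝ) ≤ A * ((x.length : ℝ) + 1) ^ b) →
      (∀ x ∈ L, 1 - ε ≤ (f x).val) → (∀ x ∉ L, (f x).val ≤ 1 - κ) →
      Vale.Agent.P325.SolvedIn (fun x : List Bool => x) (fun x => (x.length : ℝ) + 1)
        (fun x => x ∈ L) (fun x => x ∉ L) (b * α) :=
  Vale.Agent.P325.V2.result_both2
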