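import Vale.Agent.P325.V3.Final3

/-!
# Unique Games with small soundness in subexponential time

There is an absolute constant `C` such that for every alphabet size `k`, every completeness
`c ∈ (0, 1]` and every exponent `α ∈ (0, 1]` the gap problem (value at least `c` against value at
most `δ = (c / 2) ^ (C * (1 + log (1 / α)) / α)`) is solved by a deterministic Turing machine in time
`2 ^ (C' * n ^ α)`, where `n` is the number of vertices plus the number of constraints. So the
exponent is `α = O(x log (1 / x))` for `x = log (2 / c) / log (1 / δ)`. Hence every language which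
has a polynomial time reduction to this gap problem with instances of size at most
`A * (|x| + 1) ^ b` is decided in time `2 ^ (C' * (|x| + 1) ^ (b * α))`.
-/

theorem Vale.Agent.Results.P325.SubexpUGSmall.result : ∃ C : ℝ, 0 < C ∧ ∀ (k : ℕ) (α c δ : ℝ),
    2 ≤ k → 0 < α → α ≤ 1 → 0 < c → c ≤ 1 →
    δ ≤ (c / 2) ^ (C * (1 + Real.log (1 / α)) / α) →
    Vale.Agent.P325.SolvedIn (Vale.Agent.P325.Inst.code : Vale.Agent.P325.Inst k → List Bool)
      (fun G => G.size) (fun G => c ≤ G.val) (fun G => G.val ≤ δ) α ∧
    ∀ (L : Set (List Bool)) (f : List Bool → Vale.Agent.P325.Inst k) (A b : ℝ), 0 < b →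
      Nonempty (Turing.TM2ComputableInPolyTime (fun x : List Bool => x)
        (Vale.Agent.P325.Inst.code : Vale.Agent.P325.Inst k → List Bool) f) →
      (∀ x, ((f x).size : ℝ) ≤ A * ((x.length : ℝ) + 1) ^ b) →
      (∀ x ∈ L, c ≤ (f x).val) → (∀ x ∉ L, (f x).val ≤ δ) →
      Vale.Agent.P325.SolvedIn (fun x : List Bool => x) (fun x => (x.length : ℝ) + 1)
        (fun x => x ∈ L) (fun x => x ∉ L) (b * α) :=
  Vale.Agent.P325.V3.result_both3
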